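import Mathlib.MeasureTheory.Order.Group.Lattice
import Vale.Agent.Lib.P219.K.LineSigned

/-! # P219, signed line lemma

`X s t = p s p t K (t - s) (-(c t)) (c s)` for `s < t`.
The proof is in `K/Line`, `K/LineMain`, `K/LineSigned` (`LL.signed_line_lemma`):
(I) `t` not a last crossing of its level: compensated by `p s f'(t) h (t - s)` (layer cake);
(II) `t` a last crossing, `s` not a first crossing: compensated by `-p t f'(s) h (t - s)`;
(III) `s` a first crossing, `t` a last crossing: sharp bound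
`X ≥ f'(s) (-f'(t)) (d (t-s) - φ(c s) - φ(-c t))`. -/

namespace Vale.Agent.Lib.P219.LLH

open MeasureTheory Set Filter Topology
open scoped ENNReal

/-- the class of functions -/
structure Good (f : ℝ → ℝ) : Prop where
  smooth : ContDiff ℝ 1 f
  supp : HasCompactSupport f
  nonneg : ∀ t, 0 ≤ f t
  le_one : ∀ t, f t ≤ 1

/-- hypotheses of the signed line lemma -/
structure Setup (f p c : ℝ → ℝ) (K : ℝ → ℝ → ℝ → ℝ) (φ h : ℝ → ℝ) (d : ℝ) : Prop where
  good : Good f
  p_cont : Continuous p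
  p_supp : HasCompactSupport p
  p_nonneg : ∀ s, 0 ≤ p s
  c_meas : Measurable c
  c_le : ∀ s, |c s| ≤ 1
  deriv_eq : ∀ s, deriv f s = p s * c s
  K_meas : Measurable (fun q : ℝ × ℝ × ℝ => K q.1 q.2.1 q.2.2)
  K_bound : ∀ L : ℝ, ∃ C : ℝ, ∀ r a b, 0 < r → r ≤ L → |a| ≤ 1 → |b| ≤ 1 → |K r a b| ≤ C
  K_nonneg : ∀ r a b, 0 < r → |a| ≤ 1 → |b| ≤ 1 → (a ≤ 0 ∨ b ≤ 0) → 0 ≤ K r a b
  K_symm : ∀ r a b, K r a b = K r b a
  K_comp : ∀ r a b, 0 < r → 0 ≤ a → a ≤ 1 → 0 ≤ b → b ≤ 1 → -(a * h r) ≤ K r a b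
  K_comp' : ∀ r γ b, 0 < r → 0 ≤ γ → γ ≤ 1 → 0 ≤ b → b ≤ 1 → γ * h r ≤ K r (-γ) b
  K_lower : ∀ r a b, 0 < r → 0 < a → a ≤ 1 → 0 < b → b ≤ 1 →
    a * b * (d * r - φ a - φ b) ≤ K r a b
  h_smooth : ContDiff ℝ 1 h
  h_nonneg : ∀ r, 0 ≤ r → 0 ≤ h r
  h_mono : ∀ r s, 0 ≤ r → r ≤ s → h r ≤ h s
  φ_cont : Continuous φ
  φ_nonneg : ∀ a, 0 ≤ φ a
  d_nonneg : 0 ≤ d

variable {f p c : ℝ → ℝ} {K : ℝ → ℝ → ℝ → ℝ} {φ h : ℝ → ℝ} {d : ℝ}

theorem Setup.meas (S : Setup f p c K φ h d) :
    Measurable (fun q : ℝ × ℝ => p q.1 * p q.2 * K (q.2 - q.1) (-(c q.2)) (c q.1)) := by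
  have hp := S.p_cont.measurable
  have hc := S.c_meas
  have h1 : Measurable (fun q : ℝ × ℝ => (q.2 - q.1, -(c q.2), c q.1)) :=
    (measurable_snd.sub measurable_fst).prodMk
      ((hc.comp measurable_snd).neg.prodMk (hc.comp measurable_fst))
  have h2 : Measurable (fun q : ℝ × ℝ => K (q.2 - q.1) (-(c q.2)) (c q.1)) := S.K_meas.comp h1
  exact ((hp.comp measurable_fst).mul (hp.comp measurable_snd)).mul h2

/-- integrability of the pair kernel over `{s < t}` -/
theorem Setup.integrable (S : Setup f p c K φ h d) :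
    Integrable (fun q : ℝ × ℝ => {q : ℝ × ℝ | q.1 < q.2}.indicator
      (fun q => p q.1 * p q.2 * K (q.2 - q.1) (-(c q.2)) (c q.1)) q) := by
  obtain ⟨R, hR⟩ := S.p_supp.isCompact.isBounded.subset_closedBall (0 : ℝ)
  obtain ⟨M, hM⟩ := S.p_cont.bounded_above_of_compact_support S.p_supp
  obtain ⟨C, hC⟩ := S.K_bound (2 * R)
  have hzero : ∀ s, s ∉ Metric.closedBall (0 : ℝ) R → p s = 0 := by
    intro s hs
    by_contra hne
    exact hs (hR (subset_tsupport p hne))
  have hlt : MeasurableSet {q : ℝ × ℝ | q.1 < q.2} := measurableSet_lt measurable_fst measurable_snd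
  have hBm : MeasurableSet (Metric.closedBall (0 : ℝ) R ×ˢ Metric.closedBall (0 : ℝ) R) :=
    measurableSet_closedBall.prod measurableSet_closedBall
  have hBf : (volume : Measure (ℝ × ℝ))
      (Metric.closedBall (0 : ℝ) R ×ˢ Metric.closedBall (0 : ℝ) R) ≠ ⊤ :=
    ((isCompact_closedBall _ _).prod (isCompact_closedBall _ _)).measure_lt_top.ne
  refine Integrable.mono' (g := (Metric.closedBall (0 : ℝ) R ×ˢ
    Metric.closedBall (0 : ℝ) R).indicator fun _ => M * M * |C|) ?_ ?_ ?_
  · rw [integrable_indicator_iff hBm]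
    exact integrableOn_const hBf
  · exact (S.meas.indicator hlt).aestronglyMeasurable
  · refine Eventually.of_forall fun q => ?_
    have hM0 : 0 ≤ M := (norm_nonneg _).trans (hM 0)
    have hg0 : 0 ≤ M * M * |C| := by positivity
    by_cases hq : q.1 < q.2
    · rw [indicator_of_mem (show q ∈ {q : ℝ × ℝ | q.1 < q.2} from hq)]
      by_cases hb : q ∈ Metric.closedBall (0 : ℝ) R ×ˢ Metric.closedBall (0 : ℝ) R
      · rw [indicator_of_mem hb, norm_mul, norm_mul]
        have h1 : q.1 ∈ Metric.closedBall (0 : ℝ) R := hb.1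
        have h2 : q.2 ∈ Metric.closedBall (0 : ℝ) R := hb.2
        rw [mem_closedBall_zero_iff, Real.norm_eq_abs] at h1 h2
        have h3 : |K (q.2 - q.1) (-(c q.2)) (c q.1)| ≤ C := by
          refine hC _ _ _ (by linarith) ?_ (by rw [abs_neg]; exact S.c_le _) (S.c_le _)
          have := abs_le.1 h1
          have := abs_le.1 h2
          linarith
        have h4 : ‖K (q.2 - q.1) (-(c q.2)) (c q.1)‖ ≤ |C| := by
          rw [Real.norm_eq_abs]
          exact h3.trans (le_abs_self C)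
        exact mul_le_mul (mul_le_mul (hM _) (hM _) (norm_nonneg _) hM0) h4 (norm_nonneg _)
          (mul_nonneg hM0 hM0)
      · rw [indicator_of_notMem hb]
        have : p q.1 = 0 ∨ p q.2 = 0 := by
          by_cases h1 : q.1 ∈ Metric.closedBall (0 : ℝ) R
          · right
            exact hzero _ fun h2 => hb ⟨h1, h2⟩
          · left
            exact hzero _ h1
        rcases this with h0 | h0
        · rw [h0]; simp
        · rw [h0]; simp
    · rw [indicator_of_notMem (show q ∉ {q : ℝ × ℝ | q.1 < q.2} from hq), norm_zero]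
      exact indicator_nonneg (fun _ _ => hg0) q

/-- pointwise facts -/
theorem Setup.ptA (S : Setup f p c K φ h d) {a b : ℝ} (hab : a < b) (ha : 0 ≤ deriv f a) :
    p a * deriv f b * h (b - a) ≤ p a * p b * K (b - a) (-(c b)) (c a) := by
  rcases (S.p_nonneg a).eq_or_lt with h0 | h0
  · rw [← h0]; simp
  · have hca : 0 ≤ c a := by
      rw [S.deriv_eq] at ha
      exact nonneg_of_mul_nonneg_right ha h0
    have hr : 0 < b - a := by linarith
    have h1 : c b * h (b - a) ≤ K (b - a) (-(c b)) (c a) := by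
      have hcb := abs_le.1 (S.c_le b)
      have hca1 := abs_le.1 (S.c_le a)
      rcases le_total 0 (c b) with h2 | h2
      · exact S.K_comp' _ _ _ hr h2 hcb.2 hca hca1.2
      · have h3 := S.K_comp (b - a) (-(c b)) (c a) hr (by linarith) (by linarith) hca hca1.2
        linarith
    rw [S.deriv_eq b]
    have h2 : 0 ≤ p a * p b := mul_nonneg h0.le (S.p_nonneg b)
    calc p a * (p b * c b) * h (b - a) = p a * p b * (c b * h (b - a)) := by ring
      _ ≤ _ := mul_le_mul_of_nonneg_left h1 h2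

theorem Setup.ptB (S : Setup f p c K φ h d) {a b : ℝ} (hab : a < b) (hb : deriv f b ≤ 0) :
    -(p b * deriv f a * h (b - a)) ≤ p a * p b * K (b - a) (-(c b)) (c a) := by
  rcases (S.p_nonneg b).eq_or_lt with h0 | h0
  · rw [← h0]; simp
  · have hcb : c b ≤ 0 := by
      rw [S.deriv_eq] at hb
      by_contra hcon
      push Not at hcon
      have := mul_pos h0 hcon
      linarith
    have hr : 0 < b - a := by linarith
    have h1 : -(c a * h (b - a)) ≤ K (b - a) (-(c b)) (c a) := by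
      have hcb1 := abs_le.1 (S.c_le b)
      have hca1 := abs_le.1 (S.c_le a)
      rw [S.K_symm]
      rcases le_total 0 (c a) with h2 | h2
      · exact S.K_comp _ _ _ hr h2 hca1.2 (by linarith) (by linarith)
      · have h3 := S.K_comp' (b - a) (-(c a)) (-(c b)) hr (by linarith) (by linarith)
          (by linarith) (by linarith)
        rw [neg_neg] at h3
        linarith
    rw [S.deriv_eq a]
    have h2 : 0 ≤ p a * p b := mul_nonneg (S.p_nonneg a) h0.le
    calc -(p b * (p a * c a) * h (b - a)) = p a * p b * (-(c a * h (b - a))) := by ring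
      _ ≤ _ := mul_le_mul_of_nonneg_left h1 h2

theorem Setup.ptC (S : Setup f p c K φ h d) {a b : ℝ} (hab : a < b)
    (h0 : deriv f a ≤ 0 ∨ 0 ≤ deriv f b) :
    0 ≤ p a * p b * K (b - a) (-(c b)) (c a) := by
  rcases (S.p_nonneg a).eq_or_lt with h1 | h1
  · rw [← h1]; simp
  rcases (S.p_nonneg b).eq_or_lt with h2 | h2
  · rw [← h2]; simp
  refine mul_nonneg (mul_nonneg h1.le h2.le) (S.K_nonneg _ _ _ (by linarith)
    (by rw [abs_neg]; exact S.c_le _) (S.c_le _) ?_)
  rcases h0 with h0 | h0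
  · right
    rw [S.deriv_eq] at h0
    by_contra hcon
    push Not at hcon
    have := mul_pos h1 hcon
    linarith
  · left
    rw [S.deriv_eq] at h0
    have := nonneg_of_mul_nonneg_right h0 h2
    linarith

theorem Setup.ptD (S : Setup f p c K φ h d) {a b : ℝ} (hab : a < b) (ha : 0 ≤ deriv f a)
    (hb : deriv f b ≤ 0) :
    deriv f a * (-deriv f b) * (d * (b - a) - φ |c a| - φ |c b|) ≤
      p a * p b * K (b - a) (-(c b)) (c a) := by
  rcases ha.eq_or_lt with h1 | h1
  · rw [← h1]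
    have := S.ptC hab (Or.inl h1.symm.le)
    simpa using this
  rcases hb.eq_or_lt with h2 | h2
  · rw [h2]
    have := S.ptC hab (Or.inr h2.symm.le)
    simpa using this
  have e1 := S.deriv_eq a
  have e2 := S.deriv_eq b
  have hca : 0 < c a := by
    rw [e1] at h1
    exact pos_of_mul_pos_right h1 (S.p_nonneg a)
  have hcb : c b < 0 := by
    by_contra hcon
    push Not at hcon
    have := mul_nonneg (S.p_nonneg b) hcon
    linarith
  have hcb1 := abs_le.1 (S.c_le b)
  have hca1 := abs_le.1 (S.c_le a)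
  have h3 := S.K_lower (b - a) (-(c b)) (c a) (by linarith) (by linarith) (by linarith) hca hca1.2
  rw [abs_of_pos hca, abs_of_neg hcb, e1, e2]
  have h4 : 0 ≤ p a * p b := mul_nonneg (S.p_nonneg a) (S.p_nonneg b)
  calc p a * c a * -(p b * c b) * (d * (b - a) - φ (c a) - φ (-c b))
      = p a * p b * (-(c b) * c a * (d * (b - a) - φ (-(c b)) - φ (c a))) := by ring
    _ ≤ _ := mul_le_mul_of_nonneg_left h3 h4

/-- the signed line lemma in `ℝ≥0∞` -/
theorem line_signed_lint (S : Setup f p c K φ h d) :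
    ENNReal.ofReal d * (∫⁻ s, ENNReal.ofReal (f s ^ 2))
        + (∫⁻ a, ∫⁻ b in Ioi a, ENNReal.ofReal (-(p a * p b * K (b - a) (-(c b)) (c a))))
      ≤ (∫⁻ a, ∫⁻ b in Ioi a, ENNReal.ofReal (p a * p b * K (b - a) (-(c b)) (c a)))
        + ∫⁻ s, ENNReal.ofReal (p s * (|c s| * φ |c s|)) := by
  set Z : ℝ → ℝ → ℝ := fun a b => p a * p b * K (b - a) (-(c b)) (c a) with hZdef
  have hZm : Measurable (fun q : ℝ × ℝ => Z q.1 q.2) := S.meas
  have hgood : LL.Good f := ⟨S.good.smooth, S.good.supp, S.good.nonneg, S.good.le_one⟩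
  have hphm : Measurable (fun t => φ |c t|) :=
    S.φ_cont.measurable.comp S.c_meas.abs
  have hhm : Measurable h := S.h_smooth.continuous.measurable
  have key := LL.signed_line_lemma hgood S.d_nonneg (ph := fun t => φ |c t|) hphm
    (fun t => S.φ_nonneg _) (h := h) hhm (fun r hr => S.h_nonneg r hr.le)
    (fun r s hr hrs => S.h_mono r s hr.le hrs) (m := p) S.p_nonneg (Z := Z) hZm
    (fun a b hab ha => S.ptA hab ha) (fun a b hab hb => S.ptB hab hb)
    (fun a b hab ha hb => S.ptC hab (Or.inl ha)) (fun a b hab ha hb => S.ptD hab ha hb)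
  have hcost : (∫⁻ t, ENNReal.ofReal |deriv f t| * ENNReal.ofReal (φ |c t|)) =
      ∫⁻ s, ENNReal.ofReal (p s * (|c s| * φ |c s|)) := by
    refine lintegral_congr fun t => ?_
    rw [← ENNReal.ofReal_mul (abs_nonneg _), S.deriv_eq, abs_mul, abs_of_nonneg (S.p_nonneg t),
      mul_assoc]
  rw [hcost] at key
  exact key

theorem Setup.double (S : Setup f p c K φ h d) {g : ℝ → ℝ≥0∞} (hg : Measurable g)
    (hg0 : g 0 = 0) :
    (∫⁻ a, ∫⁻ b in Ioi a, g (p a * p b * K (b - a) (-(c b)) (c a))) =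
      ∫⁻ q : ℝ × ℝ, g ({q : ℝ × ℝ | q.1 < q.2}.indicator
      (fun q => p q.1 * p q.2 * K (q.2 - q.1) (-(c q.2)) (c q.1)) q) := by
  set Y : ℝ × ℝ → ℝ := fun q => {q : ℝ × ℝ | q.1 < q.2}.indicator
      (fun q => p q.1 * p q.2 * K (q.2 - q.1) (-(c q.2)) (c q.1)) q with hY
  have hlt : MeasurableSet {q : ℝ × ℝ | q.1 < q.2} := measurableSet_lt measurable_fst measurable_snd
  have hYm : Measurable Y := S.meas.indicator hlt
  rw [Measure.volume_eq_prod, lintegral_prod (fun q => g (Y q)) (hg.comp hYm).aemeasurable]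
  refine lintegral_congr fun a => ?_
  rw [← lintegral_indicator measurableSet_Ioi]
  refine lintegral_congr fun b => ?_
  by_cases hb : a < b
  · rw [indicator_of_mem (show b ∈ Ioi a from hb), hY]
    simp only
    rw [indicator_of_mem (show (a, b) ∈ {q : ℝ × ℝ | q.1 < q.2} from hb)]
  · rw [indicator_of_notMem (show b ∉ Ioi a from hb), hY]
    simp only
    rw [indicator_of_notMem (show (a, b) ∉ {q : ℝ × ℝ | q.1 < q.2} from hb), hg0]

theorem Setup.neg_ne_top (S : Setup f p c K φ h d) :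
    (∫⁻ a, ∫⁻ b in Ioi a, ENNReal.ofReal (-(p a * p b * K (b - a) (-(c b)) (c a)))) ≠ ⊤ := by
  rw [S.double (g := fun x => ENNReal.ofReal (-x)) measurable_neg.ennreal_ofReal (by simp)]
  exact S.integrable.neg.lintegral_lt_top.ne

theorem line_signed (S : Setup f p c K φ h d) :
    d * ∫ s, f s ^ 2 ≤ (∫ q : ℝ × ℝ, {q : ℝ × ℝ | q.1 < q.2}.indicator
      (fun q => p q.1 * p q.2 * K (q.2 - q.1) (-(c q.2)) (c q.1)) q)
      + ∫ s, p s * (|c s| * φ |c s|) := by
  have key := line_signed_lint S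
  have hphm : Measurable (fun t => φ |c t|) :=
    S.φ_cont.measurable.comp S.c_meas.abs
  rw [S.double (g := fun x => ENNReal.ofReal x) ENNReal.measurable_ofReal ENNReal.ofReal_zero,
    S.double (g := fun x => ENNReal.ofReal (-x)) measurable_neg.ennreal_ofReal (by simp)] at key
  have hYint := S.integrable
  set Y : ℝ × ℝ → ℝ := fun q => {q : ℝ × ℝ | q.1 < q.2}.indicator
      (fun q => p q.1 * p q.2 * K (q.2 - q.1) (-(c q.2)) (c q.1)) q with hY
  -- the square term
  have hf2 : Integrable (fun s => f s ^ 2) := by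
    refine Continuous.integrable_of_hasCompactSupport (S.good.smooth.continuous.pow 2) ?_
    have : (fun s => f s ^ 2) = fun s => f s * f s := by
      funext s; ring
    rw [this]
    exact S.good.supp.mul_left
  rw [← ofReal_integral_eq_lintegral_ofReal hf2 (Eventually.of_forall fun s => sq_nonneg _),
    ← ENNReal.ofReal_mul S.d_nonneg] at key
  -- the cost term
  have hcost_int : Integrable (fun s => p s * (|c s| * φ |c s|)) := by
    obtain ⟨M, hM⟩ := (isCompact_Icc (a := (0 : ℝ)) (b := 1)).exists_bound_of_continuousOn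
      S.φ_cont.continuousOn
    have hpint : Integrable p := S.p_cont.integrable_of_hasCompactSupport S.p_supp
    refine Integrable.mono' (hpint.mul_const M) ?_ ?_
    · exact (S.p_cont.measurable.mul (S.c_meas.abs.mul hphm)).aestronglyMeasurable
    · refine Eventually.of_forall fun s => ?_
      rw [norm_mul, Real.norm_of_nonneg (S.p_nonneg s)]
      refine mul_le_mul_of_nonneg_left ?_ (S.p_nonneg s)
      rw [norm_mul, Real.norm_eq_abs, abs_abs]
      have h1 := hM |c s| ⟨abs_nonneg _, S.c_le s⟩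
      have h2 := S.c_le s
      have h3 := norm_nonneg (φ |c s|)
      have h4 := abs_nonneg (c s)
      nlinarith
  rw [← ofReal_integral_eq_lintegral_ofReal hcost_int (Eventually.of_forall fun s =>
    mul_nonneg (S.p_nonneg s) (mul_nonneg (abs_nonneg _) (S.φ_nonneg _)))] at key
  -- back to real numbers
  have hYpos : (∫⁻ q, ENNReal.ofReal (Y q)) ≠ ⊤ := hYint.lintegral_lt_top.ne
  have hYneg : (∫⁻ q, ENNReal.ofReal (-(Y q))) ≠ ⊤ := hYint.neg.lintegral_lt_top.ne
  have e := integral_eq_lintegral_pos_part_sub_lintegral_neg_part hYint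
  have hd0 : 0 ≤ d * ∫ s, f s ^ 2 := mul_nonneg S.d_nonneg (integral_nonneg fun s => sq_nonneg _)
  have hc0 : 0 ≤ ∫ s, p s * (|c s| * φ |c s|) := integral_nonneg fun s =>
    mul_nonneg (S.p_nonneg s) (mul_nonneg (abs_nonneg _) (S.φ_nonneg _))
  have key2 := ENNReal.toReal_mono (ENNReal.add_ne_top.2 ⟨hYpos, ENNReal.ofReal_ne_top⟩) key
  rw [ENNReal.toReal_add ENNReal.ofReal_ne_top hYneg, ENNReal.toReal_add hYpos
    ENNReal.ofReal_ne_top, ENNReal.toReal_ofReal hd0, ENNReal.toReal_ofReal hc0] at key2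
  rw [e]
  linarith

end Vale.Agent.Lib.P219.LLH
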